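import Mathlib

/-!
# The augmentation filtration attached to a normal subgroup

For a normal subgroup `N` of `G` we consider the chain of additive subgroups `augFil N j` of
`K[G]` generated by the products `(z₁ - 1) ⋯ (z_j - 1) * w` with `z_i ∈ N`.  The kernel of
`K[G] → K[G ⧸ N]` is contained in `augFil N 1`, and `augFil N 1 * augFil N j ⊆ augFil N (j+1)`.
-/

namespace Vale.Agent.H52

open MonoidAlgebra

variable {K G : Type*} [Ring K] [Group G]

/-- The chain of additive subgroups of `K[G]` generated by the products
`(z₁ - 1) ⋯ (z_j - 1) * w` with `z_i ∈ N`. -/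
noncomputable def augFil (N : Subgroup G) : ℕ → AddSubgroup (MonoidAlgebra K G)
  | 0 => ⊤
  | (j + 1) => AddSubgroup.closure
      {x | ∃ z ∈ N, ∃ w ∈ augFil N j, x = (single z (1 : K) - 1) * w}

theorem augFil_zero (N : Subgroup G) : (augFil N 0 : AddSubgroup (MonoidAlgebra K G)) = ⊤ := rfl

theorem augFil_succ (N : Subgroup G) (j : ℕ) :
    (augFil N (j + 1) : AddSubgroup (MonoidAlgebra K G)) = AddSubgroup.closure
      {x | ∃ z ∈ N, ∃ w ∈ augFil N j, x = (single z (1 : K) - 1) * w} := rfl

theorem single_mul_gen (g z : G) (c : K) :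
    (single g c : MonoidAlgebra K G) * (single z 1 - 1) =
      (single (g * z * g⁻¹) 1 - 1) * single g c := by
  rw [mul_sub, sub_mul, mul_one, one_mul, single_mul_single, single_mul_single]
  simp

/-- `augFil N j` is stable under left multiplication by arbitrary elements. -/
theorem augFil_left_stable (N : Subgroup G) [N.Normal] :
    ∀ (j : ℕ) (y w : MonoidAlgebra K G), w ∈ augFil N j → y * w ∈ augFil N j := by
  intro j
  induction j with
  | zero =>
    intro y w _
    rw [augFil_zero]
    exact AddSubgroup.mem_top _
  | succ j ih =>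
    intro y w hw
    rw [augFil_succ] at hw ⊢
    induction hw using AddSubgroup.closure_induction generalizing y with
    | mem x hx =>
      obtain ⟨z, hz, w', hw', rfl⟩ := hx
      induction y using MonoidAlgebra.induction_linear with
      | zero =>
        rw [zero_mul]
        exact AddSubgroup.zero_mem _
      | add y₁ y₂ h₁ h₂ =>
        rw [add_mul]
        exact AddSubgroup.add_mem _ h₁ h₂
      | single g c =>
        rw [← mul_assoc, single_mul_gen, mul_assoc]
        exact AddSubgroup.subset_closure
          ⟨g * z * g⁻¹, Subgroup.Normal.conj_mem inferInstance z hz g, _, ih _ _ hw', rfl⟩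
    | zero =>
      rw [mul_zero]
      exact AddSubgroup.zero_mem _
    | add a b _ _ ha hb =>
      rw [mul_add]
      exact AddSubgroup.add_mem _ (ha y) (hb y)
    | neg a _ ha =>
      rw [mul_neg]
      exact AddSubgroup.neg_mem _ (ha y)

/-- `augFil N 1 * augFil N j ⊆ augFil N (j + 1)`. -/
theorem augFil_mul (N : Subgroup G) [N.Normal] (j : ℕ) :
    ∀ x ∈ (augFil N 1 : AddSubgroup (MonoidAlgebra K G)), ∀ y ∈ augFil N j,
      x * y ∈ augFil N (j + 1) := by
  intro x hx y hy
  rw [augFil_succ] at hx
  induction hx using AddSubgroup.closure_induction with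
  | mem x hx =>
    obtain ⟨z, hz, w, -, rfl⟩ := hx
    rw [mul_assoc, augFil_succ]
    exact AddSubgroup.subset_closure ⟨z, hz, _, augFil_left_stable N j w y hy, rfl⟩
  | zero =>
    rw [zero_mul]
    exact AddSubgroup.zero_mem _
  | add a b _ _ ha hb =>
    rw [add_mul]
    exact AddSubgroup.add_mem _ ha hb
  | neg a _ ha =>
    rw [neg_mul]
    exact AddSubgroup.neg_mem _ ha

/-- The chosen coset representative map `g ↦ out (g N)`. -/
noncomputable def cosetRep (N : Subgroup G) (g : G) : G := (QuotientGroup.mk g : G ⧸ N).out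

theorem sub_mapDomain_cosetRep_mem (N : Subgroup G) [N.Normal] (x : MonoidAlgebra K G) :
    x - mapDomain (cosetRep N) x ∈ (augFil N 1 : AddSubgroup (MonoidAlgebra K G)) := by
  induction x using MonoidAlgebra.induction_linear with
  | zero =>
    rw [mapDomain_zero, sub_zero]
    exact AddSubgroup.zero_mem _
  | add y₁ y₂ h₁ h₂ =>
    rw [mapDomain_add]
    have : y₁ + y₂ - (mapDomain (cosetRep N) y₁ + mapDomain (cosetRep N) y₂) =
        (y₁ - mapDomain (cosetRep N) y₁) + (y₂ - mapDomain (cosetRep N) y₂) := by abel
    rw [this]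
    exact AddSubgroup.add_mem _ h₁ h₂
  | single g c =>
    rw [mapDomain_single]
    obtain ⟨h, hh⟩ := QuotientGroup.mk_out_eq_mul N g
    have e : cosetRep N g = g * h := hh
    rw [e]
    have key : (single g c : MonoidAlgebra K G) - single (g * h) c =
        -((single (g * h * g⁻¹) (1 : K) - 1) * single g c) := by
      rw [← single_mul_gen, mul_sub, mul_one, single_mul_single, mul_one]
      abel
    rw [key, augFil_succ]
    refine AddSubgroup.neg_mem _ (AddSubgroup.subset_closure
      ⟨g * h * g⁻¹, Subgroup.Normal.conj_mem inferInstance _ h.2 g, _, ?_, rfl⟩)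
    rw [augFil_zero]
    exact AddSubgroup.mem_top _

/-- The kernel of `K[G] → K[G ⧸ N]` lies in `augFil N 1`. -/
theorem mem_augFil_one_of_map_eq_zero (N : Subgroup G) [N.Normal] (x : MonoidAlgebra K G)
    (hx : mapDomainRingHom K (QuotientGroup.mk' N) x = 0) :
    x ∈ (augFil N 1 : AddSubgroup (MonoidAlgebra K G)) := by
  have h1 : mapDomain (QuotientGroup.mk : G → G ⧸ N) x = 0 := by
    simpa using hx
  have h2 : mapDomain (cosetRep N) x = 0 := by
    have : mapDomain (cosetRep N) x =
        mapDomain (Quotient.out : G ⧸ N → G) (mapDomain (QuotientGroup.mk : G → G ⧸ N) x) := by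
      ext : 1
      simp only [mapDomain]
      rw [← Finsupp.mapDomain_comp]
      rfl
    rw [this, h1, mapDomain_zero]
  have := sub_mapDomain_cosetRep_mem N x
  rwa [h2, sub_zero] at this

/-- Elements of `augFil N j` are sums of products of `j` augmentation generators times
something. -/
theorem augFil_le_products (N : Subgroup G) (j : ℕ) :
    (augFil N j : AddSubgroup (MonoidAlgebra K G)) ≤ AddSubgroup.closure
      {x | ∃ l : List G, (∀ z ∈ l, z ∈ N) ∧ l.length = j ∧
        ∃ w, x = (l.map fun z => (single z (1 : K) - 1 : MonoidAlgebra K G)).prod * w} := by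
  induction j with
  | zero =>
    intro x _
    exact AddSubgroup.subset_closure ⟨[], by simp, rfl, x, by simp⟩
  | succ j ih =>
    rw [augFil_succ, AddSubgroup.closure_le]
    rintro x ⟨z, hz, w, hw, rfl⟩
    have step : ∀ y ∈ AddSubgroup.closure
        {x | ∃ l : List G, (∀ z ∈ l, z ∈ N) ∧ l.length = j ∧
          ∃ w, x = (l.map fun z => (single z (1 : K) - 1 : MonoidAlgebra K G)).prod * w},
        (single z (1 : K) - 1 : MonoidAlgebra K G) * y ∈ AddSubgroup.closure
          {x | ∃ l : List G, (∀ z ∈ l, z ∈ N) ∧ l.length = j + 1 ∧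
            ∃ w, x = (l.map fun z => (single z (1 : K) - 1 : MonoidAlgebra K G)).prod * w} := by
      intro y hy
      induction hy using AddSubgroup.closure_induction with
      | mem y hy =>
        obtain ⟨l, hl, hlen, w', rfl⟩ := hy
        refine AddSubgroup.subset_closure ⟨z :: l, ?_, by simp [hlen], w', ?_⟩
        · intro u hu
          rcases List.mem_cons.mp hu with rfl | hu
          · exact hz
          · exact hl u hu
        · simp [mul_assoc]
      | zero =>
        rw [mul_zero]
        exact AddSubgroup.zero_mem _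
      | add a b _ _ ha hb =>
        rw [mul_add]
        exact AddSubgroup.add_mem _ ha hb
      | neg a _ ha =>
        rw [mul_neg]
        exact AddSubgroup.neg_mem _ ha
    exact step w (ih hw)

/-- If all products of `m` augmentation generators of `N` vanish then `augFil N m = 0`. -/
theorem augFil_eq_bot (N : Subgroup G) (m : ℕ)
    (hnil : ∀ l : List G, (∀ z ∈ l, z ∈ N) → l.length = m →
      (l.map fun z => (single z (1 : K) - 1 : MonoidAlgebra K G)).prod = 0) :
    (augFil N m : AddSubgroup (MonoidAlgebra K G)) = ⊥ := by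
  rw [eq_bot_iff]
  refine (augFil_le_products N m).trans ?_
  rw [AddSubgroup.closure_le]
  rintro x ⟨l, hl, hlen, w, rfl⟩
  rw [hnil l hl hlen, zero_mul]
  exact AddSubgroup.zero_mem _

end Vale.Agent.H52
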