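import Mathlib
import Vale.Agent.H52.AugFiltration

/-!
# Nilpotency of the augmentation ideal of a finite `p`-group in characteristic `p`

For a finite `p`-group `N` and a ring `K` of characteristic `p` there is `m` such that every
product of at least `m` elements `z - 1` (`z ∈ N`) vanishes in `K[N]`.
-/

namespace Vale.Agent.H52

open MonoidAlgebra

universe u v

theorem mapDomainRingHom_gen (K : Type v) [Ring K] {G : Type u} {H : Type u} [Group G] [Group H]
    (f : G →* H) (z : G) :
    mapDomainRingHom K f (single z (1 : K) - 1 : MonoidAlgebra K G) = single (f z) (1 : K) - 1 := by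
  rw [map_sub, map_one, mapDomainRingHom_apply, mapDomain_single]

theorem gen_pow_char (p : ℕ) [Fact p.Prime] (K : Type v) [Ring K] [CharP K p] {N : Type u}
    [Group N] (c : N) (hc : c ^ p = 1) :
    (single c (1 : K) - 1 : MonoidAlgebra K N) ^ p = 0 := by
  have : CharP (MonoidAlgebra K N) p :=
    charP_of_injective_ringHom (f := (singleOneRingHom : K →+* MonoidAlgebra K N))
      single_right_injective p
  rw [sub_pow_char_of_commute _ (Commute.one_right _), single_pow, hc, one_pow, one_pow, one_def,
    sub_self]

theorem gen_pow_eq (K : Type v) [Ring K] {N : Type u} [Group N] (c : N) (k : ℕ) :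
    (single (c ^ k) (1 : K) - 1 : MonoidAlgebra K N) =
      (single c (1 : K) - 1) * ∑ i ∈ Finset.range k, (single c (1 : K) : MonoidAlgebra K N) ^ i := by
  rw [mul_geom_sum, single_pow, one_pow]

/-- Elements of `augFil (zpowers c) 1` are left multiples of `c - 1`. -/
theorem exists_eq_gen_mul (K : Type v) [Ring K] {N : Type u} [Group N] [Finite N] (c : N)
    (x : MonoidAlgebra K N) (hx : x ∈ (augFil (Subgroup.zpowers c) 1 :
      AddSubgroup (MonoidAlgebra K N))) :
    ∃ Y : MonoidAlgebra K N, x = (single c (1 : K) - 1) * Y := by
  rw [augFil_succ] at hx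
  induction hx using AddSubgroup.closure_induction with
  | mem x hx =>
    obtain ⟨z, hz, w, -, rfl⟩ := hx
    obtain ⟨k, rfl⟩ := (mem_powers_iff_mem_zpowers.mpr hz)
    refine ⟨(∑ i ∈ Finset.range k, (single c (1 : K) : MonoidAlgebra K N) ^ i) * w, ?_⟩
    show (single (c ^ k) (1 : K) - 1 : MonoidAlgebra K N) * w = _
    rw [gen_pow_eq, mul_assoc]
  | zero => exact ⟨0, by rw [mul_zero]⟩
  | add a b _ _ ha hb =>
    obtain ⟨Ya, rfl⟩ := ha
    obtain ⟨Yb, rfl⟩ := hb
    exact ⟨Ya + Yb, by rw [mul_add]⟩
  | neg a _ ha =>
    obtain ⟨Ya, rfl⟩ := ha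
    exact ⟨-Ya, by rw [mul_neg]⟩

theorem zpowers_normal_of_mem_center {N : Type u} [Group N] (c : N)
    (hc : c ∈ Subgroup.center N) : (Subgroup.zpowers c).Normal := by
  refine ⟨fun x hx g => ?_⟩
  have hxc : x ∈ Subgroup.center N := by
    obtain ⟨k, rfl⟩ := Subgroup.mem_zpowers_iff.mp hx
    exact Subgroup.zpow_mem _ hc k
  have : g * x * g⁻¹ = x := by
    rw [Subgroup.mem_center_iff] at hxc
    rw [hxc g, mul_inv_cancel_right]
  rw [this]
  exact hx

/-- Nilpotency of the augmentation ideal of a finite `p`-group in characteristic `p`. -/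
theorem exists_aug_nilpotent (p : ℕ) [Fact p.Prime] (K : Type v) [Ring K] [CharP K p] :
    ∀ (n : ℕ) (N : Type u) [Group N] [Finite N], IsPGroup p N → Nat.card N ≤ n →
      ∃ m, ∀ l : List N, m ≤ l.length →
        (l.map fun z => (single z (1 : K) - 1 : MonoidAlgebra K N)).prod = 0 := by
  intro n
  induction n with
  | zero =>
    intro N _ _ _ hcard
    have := Nat.card_pos (α := N)
    omega
  | succ n ih =>
    intro N _ _ hN hcard
    by_cases hnt : Nontrivial N
    · -- a central element of order `p`
      have hcnt : Nontrivial (Subgroup.center N) := hN.center_nontrivial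
      have hpc : IsPGroup p (Subgroup.center N) := hN.to_subgroup _
      have hdvd : p ∣ Nat.card (Subgroup.center N) := by
        rcases hpc.card_eq_or_dvd with h1 | h1
        · exact absurd h1 (by
            have := Finite.one_lt_card (α := Subgroup.center N)
            omega)
        · exact h1
      obtain ⟨c', hc'⟩ := exists_prime_orderOf_dvd_card' p hdvd
      set c : N := (c' : N) with hcdef
      have hcz : c ∈ Subgroup.center N := c'.2
      have hco : orderOf c = p := by
        rw [hcdef, Subgroup.orderOf_coe, hc']
      have hcp : c ^ p = 1 := by rw [← hco]; exact pow_orderOf_eq_one c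
      have hZn : (Subgroup.zpowers c).Normal := zpowers_normal_of_mem_center c hcz
      -- the quotient is smaller
      have hcardZ : Nat.card (Subgroup.zpowers c) = p := by rw [Nat.card_zpowers, hco]
      have hcardQ : Nat.card (N ⧸ Subgroup.zpowers c) ≤ n := by
        have h1 := Subgroup.card_eq_card_quotient_mul_card_subgroup (Subgroup.zpowers c)
        rw [hcardZ] at h1
        have hp2 : 2 ≤ p := (Fact.out : p.Prime).two_le
        have hpos := Nat.card_pos (α := N ⧸ Subgroup.zpowers c)
        have : Nat.card (N ⧸ Subgroup.zpowers c) * 2 ≤ Nat.card (N ⧸ Subgroup.zpowers c) * p :=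
          Nat.mul_le_mul_left _ hp2
        omega
      obtain ⟨m', hm'⟩ := ih (N ⧸ Subgroup.zpowers c) (hN.to_quotient _) hcardQ
      -- products of `m'` generators are multiples of `c - 1`
      have claimA : ∀ l : List N, m' ≤ l.length → ∃ Y : MonoidAlgebra K N,
          (l.map fun z => (single z (1 : K) - 1 : MonoidAlgebra K N)).prod =
            (single c (1 : K) - 1) * Y := by
        intro l hl
        apply exists_eq_gen_mul
        apply mem_augFil_one_of_map_eq_zero
        rw [map_list_prod, List.map_map]
        have := hm' (l.map (QuotientGroup.mk' (Subgroup.zpowers c))) (by simpa using hl)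
        rw [List.map_map] at this
        rw [← this]
        congr 1
        apply List.map_congr_left
        intro z _
        exact mapDomainRingHom_gen K (QuotientGroup.mk' (Subgroup.zpowers c)) z
      -- `c - 1` is central
      have hcomm : ∀ y : MonoidAlgebra K N, Commute (single c (1 : K) - 1 : MonoidAlgebra K N) y := by
        intro y
        refine Commute.sub_left ?_ (Commute.one_left y)
        apply single_commute
        · intro m
          rw [Subgroup.mem_center_iff] at hcz
          exact (hcz m).symm
        · intro r
          exact Commute.one_left r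
      have claimD : ∀ (j : ℕ) (l : List N), j * m' ≤ l.length → ∃ Y : MonoidAlgebra K N,
          (l.map fun z => (single z (1 : K) - 1 : MonoidAlgebra K N)).prod =
            (single c (1 : K) - 1) ^ j * Y := by
        intro j
        induction j with
        | zero =>
          intro l _
          exact ⟨_, by rw [pow_zero, one_mul]⟩
        | succ j ihj =>
          intro l hl
          have hlen : m' ≤ l.length := by
            have : m' ≤ (j + 1) * m' := Nat.le_mul_of_pos_left _ (Nat.succ_pos j)
            omega
          obtain ⟨Y₁, hY₁⟩ := claimA (l.take m') (by rw [List.length_take]; omega)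
          obtain ⟨Y₂, hY₂⟩ := ihj (l.drop m') (by
            rw [List.length_drop]
            have : (j + 1) * m' = j * m' + m' := by ring
            omega)
          refine ⟨Y₁ * Y₂, ?_⟩
          conv_lhs => rw [← List.take_append_drop m' l]
          rw [List.map_append, List.prod_append, hY₁, hY₂, pow_succ]
          have e := ((hcomm Y₁).pow_left j).eq
          calc (single c (1 : K) - 1 : MonoidAlgebra K N) * Y₁ * ((single c 1 - 1) ^ j * Y₂)
              = (single c (1 : K) - 1) * (Y₁ * (single c 1 - 1) ^ j) * Y₂ := by
                simp only [mul_assoc]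
            _ = (single c (1 : K) - 1) * ((single c 1 - 1) ^ j * Y₁) * Y₂ := by rw [e]
            _ = (single c (1 : K) - 1) ^ j * (single c 1 - 1) * (Y₁ * Y₂) := by
                rw [← mul_assoc, ← pow_succ', pow_succ, mul_assoc]
      refine ⟨p * m', fun l hl => ?_⟩
      obtain ⟨Y, hY⟩ := claimD p l hl
      rw [hY, gen_pow_char p K c hcp, zero_mul]
    · -- the trivial group
      rw [not_nontrivial_iff_subsingleton] at hnt
      refine ⟨1, fun l hl => ?_⟩
      match l, hl with
      | z :: l', _ =>
        have hz : z = 1 := Subsingleton.elim _ _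
        rw [List.map_cons, List.prod_cons, hz, one_def, sub_self, zero_mul]

/-- Version for a finite `p`-subgroup of an arbitrary group. -/
theorem exists_aug_nilpotent_subgroup (p : ℕ) [Fact p.Prime] (K : Type v) [Ring K] [CharP K p]
    {G : Type u} [Group G] (N : Subgroup G) [Finite N] (hN : IsPGroup p N) :
    ∃ m, ∀ l : List G, (∀ z ∈ l, z ∈ N) → m ≤ l.length →
      (l.map fun z => (single z (1 : K) - 1 : MonoidAlgebra K G)).prod = 0 := by
  obtain ⟨m, hm⟩ := exists_aug_nilpotent p K (Nat.card N) N hN le_rfl
  refine ⟨m, fun l hl hlen => ?_⟩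
  -- lift the list to `N`
  have hlift : ∃ l' : List N, l'.map Subtype.val = l := by
    clear hlen
    induction l with
    | nil => exact ⟨[], rfl⟩
    | cons z l ih =>
      obtain ⟨l', hl'⟩ := ih (fun u hu => hl u (List.mem_cons_of_mem _ hu))
      exact ⟨⟨z, hl z List.mem_cons_self⟩ :: l', by simp [hl']⟩
  obtain ⟨l', rfl⟩ := hlift
  have h0 := hm l' (by simpa using hlen)
  have h1 := congrArg (mapDomainRingHom K N.subtype) h0
  rw [map_list_prod, List.map_map, map_zero] at h1
  rw [List.map_map, ← h1]
  congr 1
  apply List.map_congr_left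
  intro z _
  exact (mapDomainRingHom_gen K N.subtype z).symm

end Vale.Agent.H52
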