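import Mathlib

/-!
# Direct and stable finiteness lift along ring homomorphisms with nilpotent kernel

The kernel is controlled by a chain of additive subgroups `I 1, I 2, ...` with
`I 1 * I j ⊆ I (j+1)` and `I (m+1) = 0`.
-/

namespace Vale.Agent.H52

theorem pow_succ_eq_self_of_idem {R : Type*} [Monoid R] (f : R) (hf : f * f = f) (k : ℕ) :
    f ^ (k + 1) = f := by
  induction k with
  | zero => simp
  | succ k ih => rw [pow_succ, ih, hf]

/-- Direct finiteness lifts along a ring homomorphism whose kernel lies in a nilpotent chain. -/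
theorem dedekindFinite_of_nil_kernel {R S : Type*} [Ring R] [Ring S] (π : R →+* S)
    (I : ℕ → AddSubgroup R)
    (hmul : ∀ j, ∀ x ∈ I 1, ∀ y ∈ I j, x * y ∈ I (j + 1))
    (hzero : ∃ m, I (m + 1) = ⊥)
    (hker : ∀ x, π x = 0 → x ∈ I 1)
    (hS : IsDedekindFiniteMonoid S) : IsDedekindFiniteMonoid R where
  mul_eq_one_symm {a b} hab := by
    have h1 : π a * π b = 1 := by rw [← map_mul, hab, map_one]
    have h2 : π b * π a = 1 := mul_eq_one_symm h1
    set f : R := 1 - b * a with hf
    have hπf : π f = 0 := by
      rw [hf, map_sub, map_one, map_mul, h2, sub_self]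
    have hfI : f ∈ I 1 := hker f hπf
    have hidem : f * f = f := by
      rw [hf]
      have : (1 - b * a) * (1 - b * a) = 1 - b * a - b * a + b * (a * b) * a := by
        noncomm_ring
      rw [this, hab]
      noncomm_ring
    have hpow : ∀ k : ℕ, f ^ (k + 1) ∈ I (k + 1) := by
      intro k
      induction k with
      | zero => simpa using hfI
      | succ k ih =>
        rw [pow_succ']
        exact hmul (k + 1) f hfI _ ih
    obtain ⟨m, hm⟩ := hzero
    have h0 : f ^ (m + 1) = 0 := by
      have := hpow m
      rw [hm] at this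
      simpa using this
    have hf0 : f = 0 := by
      rw [← pow_succ_eq_self_of_idem f hidem m, h0]
    have : 1 - b * a = 0 := by rw [← hf]; exact hf0
    exact (sub_eq_zero.mp this).symm

/-- Stable finiteness lifts along a ring homomorphism whose kernel lies in a nilpotent chain. -/
theorem stablyFinite_of_nil_kernel {R S : Type*} [Ring R] [Ring S] (π : R →+* S)
    (I : ℕ → AddSubgroup R)
    (hmul : ∀ j, ∀ x ∈ I 1, ∀ y ∈ I j, x * y ∈ I (j + 1))
    (hzero : ∃ m, I (m + 1) = ⊥)
    (hker : ∀ x, π x = 0 → x ∈ I 1)
    (hS : IsStablyFiniteRing S) : IsStablyFiniteRing R where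
  isDedekindFiniteMonoid n := by
    refine ⟨fun {A B} hAB => ?_⟩
    have h1 : π.mapMatrix A * π.mapMatrix B = 1 := by rw [← map_mul, hAB, map_one]
    have h2 : π.mapMatrix B * π.mapMatrix A = 1 := mul_eq_one_symm h1
    set F : Matrix (Fin n) (Fin n) R := 1 - B * A with hF
    have hπF : π.mapMatrix F = 0 := by
      rw [hF, map_sub, map_one, map_mul, h2, sub_self]
    have hFI : ∀ i j, F i j ∈ I 1 := by
      intro i j
      apply hker
      have := congrFun (congrFun hπF i) j
      simpa [RingHom.mapMatrix_apply] using this
    have hidem : F * F = F := by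
      rw [hF]
      have : (1 - B * A) * (1 - B * A) = 1 - B * A - B * A + B * (A * B) * A := by
        noncomm_ring
      rw [this, hAB]
      noncomm_ring
    have hpow : ∀ k : ℕ, ∀ i j, (F ^ (k + 1)) i j ∈ I (k + 1) := by
      intro k
      induction k with
      | zero => simpa using hFI
      | succ k ih =>
        intro i j
        rw [pow_succ', Matrix.mul_apply]
        exact AddSubgroup.sum_mem _ fun l _ => hmul (k + 1) _ (hFI i l) _ (ih l j)
    obtain ⟨m, hm⟩ := hzero
    have h0 : F ^ (m + 1) = 0 := by
      ext i j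
      have := hpow m i j
      rw [hm] at this
      simpa using this
    have hF0 : F = 0 := by
      rw [← pow_succ_eq_self_of_idem F hidem m, h0]
    have : 1 - B * A = 0 := by rw [← hF]; exact hF0
    exact (sub_eq_zero.mp this).symm

end Vale.Agent.H52
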