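import Mathlib
import Vale.Agent.H52.NilKernel
import Vale.Agent.H52.AugFiltration
import Vale.Agent.H52.AugNilpotent

/-!
# Group algebras in characteristic `p`: extensions with finite `p`-group kernel

If `N` is a finite normal `p`-subgroup of `G` and `K` has characteristic `p`, the kernel of
`K[G] → K[G ⧸ N]` is nilpotent, so (stable) direct finiteness lifts from `K[G ⧸ N]` to `K[G]`.
-/

namespace Vale.Agent.H52

open MonoidAlgebra

universe u v

theorem stablyFinite_of_finite_pKernel (p : ℕ) [Fact p.Prime] (K : Type v) [Ring K] [CharP K p]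
    {G : Type u} [Group G] (N : Subgroup G) [N.Normal] [Finite N] (hN : IsPGroup p N)
    (h : IsStablyFiniteRing (MonoidAlgebra K (G ⧸ N))) :
    IsStablyFiniteRing (MonoidAlgebra K G) := by
  obtain ⟨m, hm⟩ := exists_aug_nilpotent_subgroup p K N hN
  exact stablyFinite_of_nil_kernel (mapDomainRingHom K (QuotientGroup.mk' N)) (augFil N)
    (augFil_mul N) ⟨m, augFil_eq_bot N (m + 1) fun l hl hlen => hm l hl (by omega)⟩
    (mem_augFil_one_of_map_eq_zero N) h

theorem dedekindFinite_of_finite_pKernel (p : ℕ) [Fact p.Prime] (K : Type v) [Ring K] [CharP K p]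
    {G : Type u} [Group G] (N : Subgroup G) [N.Normal] [Finite N] (hN : IsPGroup p N)
    (h : IsDedekindFiniteMonoid (MonoidAlgebra K (G ⧸ N))) :
    IsDedekindFiniteMonoid (MonoidAlgebra K G) := by
  obtain ⟨m, hm⟩ := exists_aug_nilpotent_subgroup p K N hN
  exact dedekindFinite_of_nil_kernel (mapDomainRingHom K (QuotientGroup.mk' N)) (augFil N)
    (augFil_mul N) ⟨m, augFil_eq_bot N (m + 1) fun l hl hlen => hm l hl (by omega)⟩
    (mem_augFil_one_of_map_eq_zero N) h

end Vale.Agent.H52
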