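import Mathlib
import Vale.Agent.H52.FiniteKernel

/-!
# Detecting stable finiteness of group algebras on quotients

* `stablyFinite_of_relative_quotients`: if every finite subset of `N ∖ {1}` is avoided by a normal
  subgroup `M ≤ N` of `G` with `K[G ⧸ M]` stably finite, then `K[G]` is stably finite.
* finite groups, residually finite groups;
* closure of stable finiteness in characteristic `p` under extensions whose kernel is
  residually a finite `p`-group relative to `G`.
-/

namespace Vale.Agent.H52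

open MonoidAlgebra

universe u v w

theorem eq_of_mapDomain_eq_of_injOn {K : Type v} [Semiring K] {G : Type u} {H : Type w}
    (f : G → H) (S : Set G) (hf : Set.InjOn f S) (x y : MonoidAlgebra K G)
    (hx : (x.coeff.support : Set G) ⊆ S) (hy : (y.coeff.support : Set G) ⊆ S)
    (h : mapDomain f x = mapDomain f y) : x = y := by
  apply MonoidAlgebra.coeff_injective
  exact Finsupp.mapDomain_injOn S hf hx hy (congrArg MonoidAlgebra.coeff h)

theorem stablyFinite_of_relative_quotients (K : Type v) [Ring K] {G : Type u} [Group G]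
    (N : Subgroup G)
    (h : ∀ S : Finset G, (∀ s ∈ S, s ∈ N ∧ s ≠ 1) → ∃ M : Subgroup G, ∃ _ : M.Normal,
      M ≤ N ∧ (∀ s ∈ S, s ∉ M) ∧ IsStablyFiniteRing (MonoidAlgebra K (G ⧸ M))) :
    IsStablyFiniteRing (MonoidAlgebra K G) where
  isDedekindFiniteMonoid n := by
    classical
    refine ⟨fun {A B} hAB => ?_⟩
    let S₀ : Finset G := (Finset.univ.biUnion fun i : Fin n =>
      Finset.univ.biUnion fun j : Fin n => ((B * A) i j).coeff.support) ∪ {1}
    let S : Finset G :=
      ((S₀ ×ˢ S₀).image fun st => st.1⁻¹ * st.2).filter fun g => g ∈ N ∧ g ≠ 1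
    obtain ⟨M, hMn, hMN, hMS, hSF⟩ := h S (fun s hs => (Finset.mem_filter.mp hs).2)
    have hinj : Set.InjOn (QuotientGroup.mk' M) (S₀ : Set G) := by
      intro s hs t ht hst
      by_contra hne
      have h1 : s⁻¹ * t ∈ M := QuotientGroup.eq.mp hst
      have h2 : s⁻¹ * t ≠ 1 := fun h => hne (inv_mul_eq_one.mp h)
      exact hMS (s⁻¹ * t) (Finset.mem_filter.mpr ⟨Finset.mem_image.mpr
        ⟨(s, t), Finset.mem_product.mpr ⟨hs, ht⟩, rfl⟩, hMN h1, h2⟩) h1
    let φ := mapDomainRingHom K (QuotientGroup.mk' M)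
    have h1 : φ.mapMatrix A * φ.mapMatrix B = 1 := by rw [← map_mul, hAB, map_one]
    have h2 : φ.mapMatrix (B * A) = 1 := by rw [map_mul]; exact mul_eq_one_symm h1
    apply Matrix.ext
    intro i j
    have h3 : mapDomain (QuotientGroup.mk' M) ((B * A) i j) =
        mapDomain (QuotientGroup.mk' M)
          ((1 : Matrix (Fin n) (Fin n) (MonoidAlgebra K G)) i j) := by
      have e := congrFun (congrFun h2 i) j
      rw [RingHom.mapMatrix_apply, Matrix.map_apply] at e
      rw [Matrix.one_apply] at e ⊢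
      split_ifs at e ⊢ with hij
      · rw [mapDomain_one]; exact e
      · rw [mapDomain_zero]; exact e
    refine eq_of_mapDomain_eq_of_injOn _ (S₀ : Set G) hinj _ _ ?_ ?_ h3
    · intro g hg
      exact Finset.mem_union_left _ (Finset.mem_biUnion.mpr ⟨i, Finset.mem_univ _,
        Finset.mem_biUnion.mpr ⟨j, Finset.mem_univ _, hg⟩⟩)
    · intro g hg
      rw [Matrix.one_apply] at hg
      split_ifs at hg with hij
      · have hg1 : g = 1 := by
          by_contra hg1
          have := Finsupp.mem_support_iff.mp hg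
          apply this
          rw [one_def]
          simp [Ne.symm hg1]
        rw [hg1]
        exact Finset.mem_union_right _ (Finset.mem_singleton_self _)
      · simp at hg

theorem stablyFinite_of_finite (K : Type v) [DivisionRing K] (F : Type u) [Group F] [Finite F] :
    IsStablyFiniteRing (MonoidAlgebra K F) := by
  have : IsNoetherianRing (MonoidAlgebra K F) := isNoetherian_of_tower K inferInstance
  infer_instance

theorem exists_finiteIndexNormal_avoiding {G : Type u} [Group G] [Group.ResiduallyFinite G]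
    (S : Finset G) (hS : ∀ s ∈ S, s ≠ 1) :
    ∃ H : FiniteIndexNormalSubgroup G, ∀ s ∈ S, s ∉ H := by
  classical
  induction S using Finset.induction_on with
  | empty => exact ⟨.ofSubgroup ⊤, by simp⟩
  | insert a S ha ih =>
    obtain ⟨H, hH⟩ := ih (fun s hs => hS s (Finset.mem_insert_of_mem hs))
    obtain ⟨H', hH'⟩ :=
      Group.exists_finiteIndexNormalSubgroup_notMem a (hS a (Finset.mem_insert_self _ _))
    refine ⟨H ⊓ H', fun s hs hmem => ?_⟩
    rcases Finset.mem_insert.mp hs with rfl | hs
    · exact hH' ((inf_le_right : H ⊓ H' ≤ H') hmem)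
    · exact hH s hs ((inf_le_left : H ⊓ H' ≤ H) hmem)

theorem stablyFinite_of_residuallyFinite (K : Type v) [DivisionRing K] (G : Type u) [Group G]
    [Group.ResiduallyFinite G] : IsStablyFiniteRing (MonoidAlgebra K G) := by
  apply stablyFinite_of_relative_quotients K (⊤ : Subgroup G)
  intro S hS
  obtain ⟨H, hH⟩ := exists_finiteIndexNormal_avoiding S (fun s hs => (hS s hs).2)
  refine ⟨H.toSubgroup, inferInstance, le_top, fun s hs => hH s hs, ?_⟩
  have : Finite (G ⧸ H.toSubgroup) := inferInstance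
  exact stablyFinite_of_finite K _

theorem stablyFinite_of_residually_p_kernel_aux (p : ℕ) [Fact p.Prime] (K : Type v) [Ring K]
    [CharP K p] {G : Type u} [Group G] (N : Subgroup G) [N.Normal]
    (hN : ∀ S : Finset G, (∀ s ∈ S, s ∈ N ∧ s ≠ 1) → ∃ M : Subgroup G, ∃ _ : M.Normal,
      M ≤ N ∧ (∀ s ∈ S, s ∉ M) ∧ Finite (N.map (QuotientGroup.mk' M)) ∧
        IsPGroup p (N.map (QuotientGroup.mk' M)))
    (hQ : IsStablyFiniteRing (MonoidAlgebra K (G ⧸ N))) :
    IsStablyFiniteRing (MonoidAlgebra K G) := by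
  apply stablyFinite_of_relative_quotients K N
  intro S hS
  obtain ⟨M, hMn, hMN, hMS, hfin, hp⟩ := hN S hS
  refine ⟨M, hMn, hMN, hMS, ?_⟩
  have e := QuotientGroup.quotientQuotientEquivQuotient M N hMN
  have hQ' : IsStablyFiniteRing (MonoidAlgebra K ((G ⧸ M) ⧸ N.map (QuotientGroup.mk' M))) :=
    (RingEquiv.isStablyFiniteRing_iff (mapDomainRingEquiv K e)).mpr hQ
  exact stablyFinite_of_finite_pKernel p K (N.map (QuotientGroup.mk' M)) hp hQ'

theorem finite_pGroup_map_of_relIndex (p : ℕ) [Fact p.Prime] {G : Type u} [Group G]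
    (N M : Subgroup G) [M.Normal] (k : ℕ) (hk : M.relIndex N = p ^ k) :
    Finite (N.map (QuotientGroup.mk' M)) ∧ IsPGroup p (N.map (QuotientGroup.mk' M)) := by
  have hidx : (M.subgroupOf N).index = p ^ k := hk
  have hfinQ : Finite (N ⧸ M.subgroupOf N) := by
    apply Subgroup.index_ne_zero_iff_finite.mp
    rw [hidx]; exact pow_ne_zero _ (Fact.out : p.Prime).ne_zero
  let φ : N →* N.map (QuotientGroup.mk' M) := (QuotientGroup.mk' M).subgroupMap N
  have hφ : Function.Surjective φ := (QuotientGroup.mk' M).subgroupMap_surjective N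
  have key : ∀ x : N, x ∈ M.subgroupOf N → φ x = 1 := by
    intro x hx
    apply Subtype.ext
    exact (QuotientGroup.eq_one_iff _).mpr (Subgroup.mem_subgroupOf.mp hx)
  constructor
  · have hker : M.subgroupOf N ≤ φ.ker := fun x hx => MonoidHom.mem_ker.mpr (key x hx)
    exact Finite.of_surjective (QuotientGroup.lift (M.subgroupOf N) φ hker)
      (QuotientGroup.lift_surjective_of_surjective _ _ hφ _)
  · intro x
    obtain ⟨g, rfl⟩ := hφ x
    refine ⟨k, ?_⟩
    have hmem : g ^ (p ^ k) ∈ M.subgroupOf N := by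
      rw [← hidx]; exact Subgroup.pow_index_mem _ g
    rw [← map_pow]
    exact key _ hmem

/-- Closure of stable finiteness in characteristic `p` under extensions with a kernel that is
residually a finite `p`-group relative to `G`. -/
theorem stablyFinite_of_residually_p_kernel (p : ℕ) [Fact p.Prime] (K : Type v) [Ring K]
    [CharP K p] {G : Type u} [Group G] (N : Subgroup G) [N.Normal]
    (hN : ∀ S : Finset G, (∀ s ∈ S, s ∈ N ∧ s ≠ 1) → ∃ M : Subgroup G,
      M.Normal ∧ M ≤ N ∧ (∀ s ∈ S, s ∉ M) ∧ ∃ k : ℕ, M.relIndex N = p ^ k)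
    (hQ : IsStablyFiniteRing (MonoidAlgebra K (G ⧸ N))) :
    IsStablyFiniteRing (MonoidAlgebra K G) := by
  apply stablyFinite_of_residually_p_kernel_aux p K N _ hQ
  intro S hS
  obtain ⟨M, hMn, hMN, hMS, k, hk⟩ := hN S hS
  obtain ⟨h1, h2⟩ := finite_pGroup_map_of_relIndex p N M k hk
  exact ⟨M, hMn, hMN, hMS, h1, h2⟩

end Vale.Agent.H52
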