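import Mathlib
import Vale.Agent.H52.Residual

/-!
# Central infinite cyclic kernels

If `z` is central of infinite order in `G`, the subgroups `⟨z ^ (p ^ k)⟩` are normal in `G`, have
`p`-power index in `⟨z⟩`, and avoid any finite subset of `⟨z⟩ ∖ {1}` for `k` large.
-/

namespace Vale.Agent.H52

open MonoidAlgebra

universe u v

theorem zpow_pow_eq_one {H : Type u} [Group H] (q : H) (n : ℤ) (m : ℕ) (h : q ^ m = 1) :
    (q ^ n) ^ m = 1 := by
  rw [← zpow_natCast, ← zpow_mul, mul_comm, zpow_mul, zpow_natCast, h, one_zpow]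

theorem not_mem_zpowers_pow_of_lt {G : Type u} [Group G] (z : G) (hz : ¬ IsOfFinOrder z)
    (p : ℕ) (hp : 2 ≤ p) (s : G) (hs : s ∈ Subgroup.zpowers z) (hs1 : s ≠ 1) :
    ∃ k₀ : ℕ, ∀ k, k₀ ≤ k → s ∉ Subgroup.zpowers (z ^ (p ^ k)) := by
  obtain ⟨n, rfl⟩ := Subgroup.mem_zpowers_iff.mp hs
  have hn : n ≠ 0 := by
    rintro rfl
    exact hs1 (zpow_zero z)
  refine ⟨n.natAbs, fun k hk hmem => ?_⟩
  obtain ⟨m, hm⟩ := Subgroup.mem_zpowers_iff.mp hmem
  have hinj := injective_zpow_iff_not_isOfFinOrder.mpr hz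
  have e : ((p ^ k : ℕ) : ℤ) * m = n := by
    apply hinj
    show z ^ (((p ^ k : ℕ) : ℤ) * m) = z ^ n
    rw [zpow_mul, zpow_natCast]
    exact hm
  have hm0 : m ≠ 0 := by
    rintro rfl
    rw [mul_zero] at e
    exact hn e.symm
  have h1 : n.natAbs = p ^ k * m.natAbs := by
    rw [← e, Int.natAbs_mul, Int.natAbs_natCast]
  have h2 : 1 ≤ m.natAbs := Int.natAbs_pos.mpr hm0
  have h3 : k < p ^ k := Nat.lt_pow_self hp
  have h4 : p ^ k * 1 ≤ p ^ k * m.natAbs := Nat.mul_le_mul_left _ h2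
  omega

theorem exists_avoiding_zpowers {G : Type u} [Group G] (z : G) (hz : ¬ IsOfFinOrder z)
    (p : ℕ) (hp : 2 ≤ p) (S : Finset G) (hS : ∀ s ∈ S, s ∈ Subgroup.zpowers z ∧ s ≠ 1) :
    ∃ k₀ : ℕ, ∀ k, k₀ ≤ k → ∀ s ∈ S, s ∉ Subgroup.zpowers (z ^ (p ^ k)) := by
  classical
  induction S using Finset.induction_on with
  | empty => exact ⟨0, fun k _ s hs => absurd hs (Finset.notMem_empty s)⟩
  | insert a S ha ih =>
    obtain ⟨k₁, h₁⟩ := ih (fun s hs => hS s (Finset.mem_insert_of_mem hs))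
    obtain ⟨k₂, h₂⟩ := not_mem_zpowers_pow_of_lt z hz p hp a
      (hS a (Finset.mem_insert_self _ _)).1 (hS a (Finset.mem_insert_self _ _)).2
    refine ⟨max k₁ k₂, fun k hk s hs => ?_⟩
    rcases Finset.mem_insert.mp hs with rfl | hs
    · exact h₂ k (le_trans (le_max_right _ _) hk)
    · exact h₁ k (le_trans (le_max_left _ _) hk) s hs

/-- Closure of stable finiteness in characteristic `p` under extensions with central infinite
cyclic kernel. -/
theorem stablyFinite_of_central_cyclic_kernel (p : ℕ) [Fact p.Prime] (K : Type v) [Ring K]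
    [CharP K p] {G : Type u} [Group G] (z : G) (hzc : z ∈ Subgroup.center G)
    (hz : ¬ IsOfFinOrder z) [(Subgroup.zpowers z).Normal]
    (hQ : IsStablyFiniteRing (MonoidAlgebra K (G ⧸ Subgroup.zpowers z))) :
    IsStablyFiniteRing (MonoidAlgebra K G) := by
  apply stablyFinite_of_residually_p_kernel_aux p K (Subgroup.zpowers z) _ hQ
  intro S hS
  obtain ⟨k, hk⟩ := exists_avoiding_zpowers z hz p (Fact.out : p.Prime).two_le S hS
  have hMn : (Subgroup.zpowers (z ^ (p ^ k))).Normal :=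
    zpowers_normal_of_mem_center _ (Subgroup.pow_mem _ hzc _)
  refine ⟨Subgroup.zpowers (z ^ (p ^ k)), hMn,
    Subgroup.zpowers_le.mpr (Subgroup.pow_mem _ (Subgroup.mem_zpowers z) _),
    hk k le_rfl, ?_⟩
  rw [MonoidHom.map_zpowers]
  have hpow : (QuotientGroup.mk' (Subgroup.zpowers (z ^ (p ^ k))) z) ^ (p ^ k) = 1 := by
    rw [← map_pow]
    exact (QuotientGroup.eq_one_iff _).mpr (Subgroup.mem_zpowers _)
  have hfo : IsOfFinOrder (QuotientGroup.mk' (Subgroup.zpowers (z ^ (p ^ k))) z) :=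
    isOfFinOrder_iff_pow_eq_one.mpr ⟨p ^ k, pow_pos (Fact.out : p.Prime).pos k, hpow⟩
  refine ⟨?_, ?_⟩
  · exact Set.finite_coe_iff.mpr hfo.finite_zpowers
  · intro x
    obtain ⟨n, hn⟩ := Subgroup.mem_zpowers_iff.mp x.2
    refine ⟨k, ?_⟩
    apply Subtype.ext
    show (x : G ⧸ Subgroup.zpowers (z ^ (p ^ k))) ^ (p ^ k) = 1
    rw [← hn]
    exact zpow_pow_eq_one _ n _ hpow

end Vale.Agent.H52
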