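import Mathlib

/-!
# One-sided localisation of direct finiteness to a subgroup

If `a * b = 1` in `R[G]` and the support of `a` (or of `b`) lies in a subgroup `H` (or a coset of
`H`) such that `R[H]` is directly finite, then `b * a = 1`.
-/

namespace Vale.Agent.H52

open MonoidAlgebra

variable {R G : Type*} [Ring R] [Group G]

/-- Restriction of an element of `R[G]` to a subgroup `H`. -/
noncomputable def restrictSubgroup (H : Subgroup G) (x : MonoidAlgebra R G) : MonoidAlgebra R H :=
  comapDomain (Subtype.val : H → G) Subtype.val_injective x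

theorem coeff_restrictSubgroup (H : Subgroup G) (x : MonoidAlgebra R G) (h : H) :
    (restrictSubgroup H x).coeff h = x.coeff (h : G) := by
  simp [restrictSubgroup]

theorem support_restrictSubgroup (H : Subgroup G) (x : MonoidAlgebra R G) :
    (restrictSubgroup H x).coeff.support =
      x.coeff.support.preimage (Subtype.val : H → G) Subtype.val_injective.injOn := by
  simp [restrictSubgroup, Finsupp.comapDomain_support]

theorem restrictSubgroup_one (H : Subgroup G) :
    restrictSubgroup H (1 : MonoidAlgebra R G) = 1 := by
  classical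
  ext h
  rw [coeff_restrictSubgroup, one_def, one_def]
  simp only [coeff_single, Finsupp.single_apply]
  have : ((1 : G) = (h : G)) ↔ ((1 : H) = h) := by
    constructor
    · intro e
      exact Subtype.ext e
    · intro e
      rw [← e]
      rfl
  simp only [this]

theorem mapDomain_restrictSubgroup (H : Subgroup G) (x : MonoidAlgebra R G)
    (hx : ∀ g ∈ x.coeff.support, g ∈ H) :
    mapDomainRingHom R H.subtype (restrictSubgroup H x) = x := by
  have : mapDomain (Subtype.val : H → G) (restrictSubgroup H x) = x := by
    apply mapDomain_comapDomain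
    intro g hg
    exact ⟨⟨g, hx g hg⟩, rfl⟩
  simpa using this

/-- Restriction is multiplicative as soon as the left factor is supported in `H`. -/
theorem restrictSubgroup_mul_left (H : Subgroup G) (a b : MonoidAlgebra R G)
    (ha : ∀ g ∈ a.coeff.support, g ∈ H) :
    restrictSubgroup H (a * b) = restrictSubgroup H a * restrictSubgroup H b := by
  classical
  ext h
  rw [coeff_restrictSubgroup, coeff_mul_apply_left, coeff_mul_apply_left]
  simp only [Finsupp.sum, support_restrictSubgroup, coeff_restrictSubgroup]
  have key := Finset.sum_preimage (Subtype.val : H → G) a.coeff.support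
    Subtype.val_injective.injOn (fun g => a.coeff g * b.coeff (g⁻¹ * (h : G)))
    (by
      intro g hg hnot
      exact absurd ⟨⟨g, ha g hg⟩, rfl⟩ hnot)
  rw [← key]
  rfl

/-- Restriction is multiplicative as soon as the right factor is supported in `H`. -/
theorem restrictSubgroup_mul_right (H : Subgroup G) (a b : MonoidAlgebra R G)
    (hb : ∀ g ∈ b.coeff.support, g ∈ H) :
    restrictSubgroup H (a * b) = restrictSubgroup H a * restrictSubgroup H b := by
  classical
  ext h
  rw [coeff_restrictSubgroup, coeff_mul_apply_right, coeff_mul_apply_right]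
  simp only [Finsupp.sum, support_restrictSubgroup, coeff_restrictSubgroup]
  have key := Finset.sum_preimage (Subtype.val : H → G) b.coeff.support
    Subtype.val_injective.injOn (fun g => a.coeff ((h : G) * g⁻¹) * b.coeff g)
    (by
      intro g hg hnot
      exact absurd ⟨⟨g, hb g hg⟩, rfl⟩ hnot)
  rw [← key]
  rfl

/-- If `a` is supported in `H` and `R[H]` is directly finite, then `a * b = 1` implies
`b * a = 1`. -/
theorem mul_eq_one_comm_of_left_support (H : Subgroup G)
    (hH : ∀ x y : MonoidAlgebra R H, x * y = 1 → y * x = 1)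
    (a b : MonoidAlgebra R G) (ha : ∀ g ∈ a.coeff.support, g ∈ H) (hab : a * b = 1) :
    b * a = 1 := by
  have h1 : restrictSubgroup H a * restrictSubgroup H b = 1 := by
    rw [← restrictSubgroup_mul_left H a b ha, hab, restrictSubgroup_one]
  have h2 := hH _ _ h1
  have h3 := mapDomain_restrictSubgroup H a ha
  have h4 : mapDomainRingHom R H.subtype (restrictSubgroup H b) * a = 1 := by
    have := congrArg (mapDomainRingHom R H.subtype) h2
    rw [map_mul, map_one, h3] at this
    exact this
  have h5 : mapDomainRingHom R H.subtype (restrictSubgroup H b) = b :=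
    left_inv_eq_right_inv h4 hab
  rw [h5] at h4
  exact h4

/-- If `b` is supported in `H` and `R[H]` is directly finite, then `a * b = 1` implies
`b * a = 1`. -/
theorem mul_eq_one_comm_of_right_support (H : Subgroup G)
    (hH : ∀ x y : MonoidAlgebra R H, x * y = 1 → y * x = 1)
    (a b : MonoidAlgebra R G) (hb : ∀ g ∈ b.coeff.support, g ∈ H) (hab : a * b = 1) :
    b * a = 1 := by
  have h1 : restrictSubgroup H a * restrictSubgroup H b = 1 := by
    rw [← restrictSubgroup_mul_right H a b hb, hab, restrictSubgroup_one]
  have h2 := hH _ _ h1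
  have h3 := mapDomain_restrictSubgroup H b hb
  have h4 : b * mapDomainRingHom R H.subtype (restrictSubgroup H a) = 1 := by
    have := congrArg (mapDomainRingHom R H.subtype) h2
    rw [map_mul, map_one, h3] at this
    exact this
  have h5 : a = mapDomainRingHom R H.subtype (restrictSubgroup H a) :=
    left_inv_eq_right_inv hab h4
  rw [← h5] at h4
  exact h4

/-- Coset version on the left factor: the support of `a` lies in the left coset `g₀ H`. -/
theorem mul_eq_one_comm_of_left_coset (H : Subgroup G)
    (hH : ∀ x y : MonoidAlgebra R H, x * y = 1 → y * x = 1)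
    (a b : MonoidAlgebra R G) (g₀ : G) (ha : ∀ g ∈ a.coeff.support, g₀⁻¹ * g ∈ H)
    (hab : a * b = 1) : b * a = 1 := by
  have hu : (single g₀ (1 : R) : MonoidAlgebra R G) * single g₀⁻¹ 1 = 1 := by
    simp [one_def]
  have hu' : (single g₀⁻¹ (1 : R) : MonoidAlgebra R G) * single g₀ 1 = 1 := by
    simp [one_def]
  have h1 : (single g₀⁻¹ 1 * a) * (b * single g₀ 1) = 1 := by
    calc (single g₀⁻¹ 1 * a) * (b * single g₀ 1)
        = single g₀⁻¹ 1 * (a * b) * single g₀ 1 := by simp only [mul_assoc]
      _ = 1 := by rw [hab, mul_one, hu']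
  have hsupp : ∀ g ∈ (single g₀⁻¹ (1 : R) * a).coeff.support, g ∈ H := by
    intro g hg
    rw [Finsupp.mem_support_iff, coeff_single_mul_apply, inv_inv, one_mul] at hg
    have := ha (g₀ * g) (Finsupp.mem_support_iff.mpr hg)
    simpa using this
  have h2 := mul_eq_one_comm_of_left_support H hH _ _ hsupp h1
  calc b * a = b * (single g₀ 1 * single g₀⁻¹ 1) * a := by rw [hu, mul_one]
    _ = (b * single g₀ 1) * (single g₀⁻¹ 1 * a) := by simp only [mul_assoc]
    _ = 1 := h2

/-- Coset version on the right factor: the support of `b` lies in the right coset `H g₀`. -/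
theorem mul_eq_one_comm_of_right_coset (H : Subgroup G)
    (hH : ∀ x y : MonoidAlgebra R H, x * y = 1 → y * x = 1)
    (a b : MonoidAlgebra R G) (g₀ : G) (hb : ∀ g ∈ b.coeff.support, g * g₀⁻¹ ∈ H)
    (hab : a * b = 1) : b * a = 1 := by
  have hu : (single g₀ (1 : R) : MonoidAlgebra R G) * single g₀⁻¹ 1 = 1 := by
    simp [one_def]
  have hu' : (single g₀⁻¹ (1 : R) : MonoidAlgebra R G) * single g₀ 1 = 1 := by
    simp [one_def]
  have h1 : (single g₀ 1 * a) * (b * single g₀⁻¹ 1) = 1 := by
    calc (single g₀ 1 * a) * (b * single g₀⁻¹ 1)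
        = single g₀ 1 * (a * b) * single g₀⁻¹ 1 := by simp only [mul_assoc]
      _ = 1 := by rw [hab, mul_one, hu]
  have hsupp : ∀ g ∈ (b * single g₀⁻¹ (1 : R)).coeff.support, g ∈ H := by
    intro g hg
    rw [Finsupp.mem_support_iff, coeff_mul_single_apply, inv_inv, mul_one] at hg
    have := hb (g * g₀) (Finsupp.mem_support_iff.mpr hg)
    simpa using this
  have h2 := mul_eq_one_comm_of_right_support H hH _ _ hsupp h1
  calc b * a = b * (single g₀⁻¹ 1 * single g₀ 1) * a := by rw [hu', mul_one]
    _ = (b * single g₀⁻¹ 1) * (single g₀ 1 * a) := by simp only [mul_assoc]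
    _ = 1 := h2

end Vale.Agent.H52
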