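import Mathlib

/-!
# Regular elements of group algebras with a dominant term

If `a ∈ R[G]` has a term `a.coeff g₀ • g₀` whose coefficient is left regular and all other support
elements `g` satisfy `g₀⁻¹ * g ∈ P` for a subsemigroup `P` of `G` not containing `1`, then `a` is
left regular in `R[G]`.  There is a mirror statement on the right.
-/

namespace Vale.Agent.H52

open MonoidAlgebra

variable {R G : Type*} [Ring R] [Group G]

/-- Left regularity from a dominant term. -/
theorem left_regular_of_semigroup (P : Subsemigroup G) (hP : (1 : G) ∉ P)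
    (a : MonoidAlgebra R G) (g₀ : G)
    (hreg : ∀ r : R, a.coeff g₀ * r = 0 → r = 0)
    (hsupp : ∀ g ∈ a.coeff.support, g ≠ g₀ → g₀⁻¹ * g ∈ P)
    (c : MonoidAlgebra R G) (hc : a * c = 0) : c = 0 := by
  classical
  by_contra hne
  have hsne : c.coeff.support.Nonempty := by
    rw [Finsupp.support_nonempty_iff]
    simpa using hne
  let r : c.coeff.support → c.coeff.support → Prop := fun x y => (y : G) * (x : G)⁻¹ ∈ P
  have hwf : WellFounded r := by
    have h1 : IsTrans _ r := ⟨fun x y z hxy hyz => by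
      have e : (z : G) * (x : G)⁻¹ = ((z : G) * (y : G)⁻¹) * ((y : G) * (x : G)⁻¹) := by group
      show (z : G) * (x : G)⁻¹ ∈ P
      rw [e]
      exact P.mul_mem hyz hxy⟩
    have h2 : Std.Irrefl r := ⟨fun x hx => hP (by simpa [r] using hx)⟩
    exact Finite.wellFounded_of_trans_of_irrefl r
  obtain ⟨⟨g, hg⟩, -, hmin⟩ :=
    hwf.has_min Set.univ ⟨⟨hsne.choose, hsne.choose_spec⟩, trivial⟩
  have key : (a * c).coeff (g₀ * g) = a.coeff g₀ * c.coeff g := by
    rw [coeff_mul_apply_left, Finsupp.sum, Finset.sum_eq_single g₀]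
    · simp
    · intro h hh hne'
      have h0 : c.coeff (h⁻¹ * (g₀ * g)) = 0 := by
        by_contra hc0
        have hmem : h⁻¹ * (g₀ * g) ∈ c.coeff.support := Finsupp.mem_support_iff.mpr hc0
        apply hmin ⟨_, hmem⟩ trivial
        show g * (h⁻¹ * (g₀ * g))⁻¹ ∈ P
        have e : g * (h⁻¹ * (g₀ * g))⁻¹ = g₀⁻¹ * h := by group
        rw [e]
        exact hsupp h hh hne'
      rw [h0, mul_zero]
    · intro hnot
      rw [Finsupp.notMem_support_iff.mp hnot, zero_mul]
  rw [hc] at key
  have h0 : c.coeff g = 0 := hreg _ (by simpa using key.symm)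
  exact (Finsupp.mem_support_iff.mp hg) h0

/-- Right regularity from a dominant term. -/
theorem right_regular_of_semigroup (P : Subsemigroup G) (hP : (1 : G) ∉ P)
    (b : MonoidAlgebra R G) (g₀ : G)
    (hreg : ∀ r : R, r * b.coeff g₀ = 0 → r = 0)
    (hsupp : ∀ g ∈ b.coeff.support, g ≠ g₀ → g * g₀⁻¹ ∈ P)
    (c : MonoidAlgebra R G) (hc : c * b = 0) : c = 0 := by
  classical
  by_contra hne
  have hsne : c.coeff.support.Nonempty := by
    rw [Finsupp.support_nonempty_iff]
    simpa using hne
  let r : c.coeff.support → c.coeff.support → Prop := fun x y => (x : G)⁻¹ * (y : G) ∈ P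
  have hwf : WellFounded r := by
    have h1 : IsTrans _ r := ⟨fun x y z hxy hyz => by
      have e : (x : G)⁻¹ * (z : G) = ((x : G)⁻¹ * (y : G)) * ((y : G)⁻¹ * (z : G)) := by group
      show (x : G)⁻¹ * (z : G) ∈ P
      rw [e]
      exact P.mul_mem hxy hyz⟩
    have h2 : Std.Irrefl r := ⟨fun x hx => hP (by simpa [r] using hx)⟩
    exact Finite.wellFounded_of_trans_of_irrefl r
  obtain ⟨⟨g, hg⟩, -, hmin⟩ :=
    hwf.has_min Set.univ ⟨⟨hsne.choose, hsne.choose_spec⟩, trivial⟩
  have key : (c * b).coeff (g * g₀) = c.coeff g * b.coeff g₀ := by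
    rw [coeff_mul_apply_right, Finsupp.sum, Finset.sum_eq_single g₀]
    · simp
    · intro h hh hne'
      have h0 : c.coeff (g * g₀ * h⁻¹) = 0 := by
        by_contra hc0
        have hmem : g * g₀ * h⁻¹ ∈ c.coeff.support := Finsupp.mem_support_iff.mpr hc0
        apply hmin ⟨_, hmem⟩ trivial
        show (g * g₀ * h⁻¹)⁻¹ * g ∈ P
        have e : (g * g₀ * h⁻¹)⁻¹ * g = h * g₀⁻¹ := by group
        rw [e]
        exact hsupp h hh hne'
      rw [h0, zero_mul]
    · intro hnot
      rw [Finsupp.notMem_support_iff.mp hnot, mul_zero]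
  rw [hc] at key
  have h0 : c.coeff g = 0 := hreg _ (by simpa using key.symm)
  exact (Finsupp.mem_support_iff.mp hg) h0

end Vale.Agent.H52
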