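import Mathlib
import Vale.Agent.H52.Residual

/-!
# Stable finiteness and kernels that are residually finite `p`-groups

* `stablyFinite_of_sep_kernel`: stable finiteness lifts along a ring homomorphism whose kernel
  lies in the first term of a multiplicative chain of additive subgroups with zero intersection.
* For a normal subgroup `N` of `G` that is residually a finite `p`-group (as an abstract group)
  and a ring `K` of characteristic `p`, the chain `augFil N` of `K[G]` has zero intersection.
* Hence stable finiteness of `K[G ⧸ N]` implies stable finiteness of `K[G]`.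
-/

namespace Vale.Agent.H52

open MonoidAlgebra

universe u v

/-- Stable finiteness lifts along a ring homomorphism whose kernel lies in the first term of a
multiplicative chain with zero intersection. -/
theorem stablyFinite_of_sep_kernel {R S : Type*} [Ring R] [Ring S] (π : R →+* S)
    (I : ℕ → AddSubgroup R)
    (hmul : ∀ j, ∀ x ∈ I 1, ∀ y ∈ I j, x * y ∈ I (j + 1))
    (hsep : ∀ x, (∀ j, x ∈ I (j + 1)) → x = 0)
    (hker : ∀ x, π x = 0 → x ∈ I 1)
    (hS : IsStablyFiniteRing S) : IsStablyFiniteRing R where
  isDedekindFiniteMonoid n := by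
    refine ⟨fun {A B} hAB => ?_⟩
    have h1 : π.mapMatrix A * π.mapMatrix B = 1 := by rw [← map_mul, hAB, map_one]
    have h2 : π.mapMatrix B * π.mapMatrix A = 1 := mul_eq_one_symm h1
    set F : Matrix (Fin n) (Fin n) R := 1 - B * A with hF
    have hπF : π.mapMatrix F = 0 := by
      rw [hF, map_sub, map_one, map_mul, h2, sub_self]
    have hFI : ∀ i j, F i j ∈ I 1 := by
      intro i j
      apply hker
      have := congrFun (congrFun hπF i) j
      simpa [RingHom.mapMatrix_apply] using this
    have hidem : F * F = F := by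
      rw [hF]
      have : (1 - B * A) * (1 - B * A) = 1 - B * A - B * A + B * (A * B) * A := by
        noncomm_ring
      rw [this, hAB]
      noncomm_ring
    have hpow : ∀ k : ℕ, ∀ i j, (F ^ (k + 1)) i j ∈ I (k + 1) := by
      intro k
      induction k with
      | zero => simpa using hFI
      | succ k ih =>
        intro i j
        rw [pow_succ', Matrix.mul_apply]
        exact AddSubgroup.sum_mem _ fun l _ => hmul (k + 1) _ (hFI i l) _ (ih l j)
    have hF0 : F = 0 := by
      ext i j
      apply hsep
      intro k
      have := hpow k i j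
      rwa [pow_succ_eq_self_of_idem F hidem k] at this
    have : 1 - B * A = 0 := by rw [← hF]; exact hF0
    exact (sub_eq_zero.mp this).symm

/-- Direct finiteness lifts along a ring homomorphism whose kernel lies in the first term of a
multiplicative chain with zero intersection. -/
theorem dedekindFinite_of_sep_kernel {R S : Type*} [Ring R] [Ring S] (π : R →+* S)
    (I : ℕ → AddSubgroup R)
    (hmul : ∀ j, ∀ x ∈ I 1, ∀ y ∈ I j, x * y ∈ I (j + 1))
    (hsep : ∀ x, (∀ j, x ∈ I (j + 1)) → x = 0)
    (hker : ∀ x, π x = 0 → x ∈ I 1)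
    (hS : IsDedekindFiniteMonoid S) : IsDedekindFiniteMonoid R where
  mul_eq_one_symm {a b} hab := by
    have h1 : π a * π b = 1 := by rw [← map_mul, hab, map_one]
    have h2 : π b * π a = 1 := mul_eq_one_symm h1
    set f : R := 1 - b * a with hf
    have hπf : π f = 0 := by
      rw [hf, map_sub, map_one, map_mul, h2, sub_self]
    have hfI : f ∈ I 1 := hker f hπf
    have hidem : f * f = f := by
      rw [hf]
      have : (1 - b * a) * (1 - b * a) = 1 - b * a - b * a + b * (a * b) * a := by
        noncomm_ring
      rw [this, hab]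
      noncomm_ring
    have hpow : ∀ k : ℕ, f ^ (k + 1) ∈ I (k + 1) := by
      intro k
      induction k with
      | zero => simpa using hfI
      | succ k ih =>
        rw [pow_succ']
        exact hmul (k + 1) f hfI _ ih
    have hf0 : f = 0 := by
      apply hsep
      intro k
      have := hpow k
      rwa [pow_succ_eq_self_of_idem f hidem k] at this
    have : 1 - b * a = 0 := by rw [← hf]; exact hf0
    exact (sub_eq_zero.mp this).symm

section fil

variable {K : Type v} [Ring K] {G : Type u} [Group G]

/-- `augFil N j` is stable under right multiplication by arbitrary elements. -/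
theorem augFil_right_stable (N : Subgroup G) :
    ∀ (j : ℕ) (w y : MonoidAlgebra K G), w ∈ augFil N j → w * y ∈ augFil N j := by
  intro j
  induction j with
  | zero =>
    intro w y _
    rw [augFil_zero]
    exact AddSubgroup.mem_top _
  | succ j ih =>
    intro w y hw
    rw [augFil_succ] at hw ⊢
    induction hw using AddSubgroup.closure_induction with
    | mem x hx =>
      obtain ⟨z, hz, w', hw', rfl⟩ := hx
      rw [mul_assoc]
      exact AddSubgroup.subset_closure ⟨z, hz, _, ih _ _ hw', rfl⟩
    | zero =>
      rw [zero_mul]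
      exact AddSubgroup.zero_mem _
    | add a b _ _ ha hb =>
      rw [add_mul]
      exact AddSubgroup.add_mem _ ha hb
    | neg a _ ha =>
      rw [neg_mul]
      exact AddSubgroup.neg_mem _ ha

/-- The restriction of the coefficients to the subgroup `N`. -/
noncomputable def resSub (N : Subgroup G) : MonoidAlgebra K G →+ MonoidAlgebra K N :=
  comapDomainAddMonoidHom (Subtype.val : N → G) Subtype.val_injective

theorem resSub_coeff (N : Subgroup G) (x : MonoidAlgebra K G) (n : N) :
    (resSub N x).coeff n = x.coeff (n : G) := by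
  simp [resSub]

theorem resSub_single_mul (N : Subgroup G) (z : G) (hz : z ∈ N) (w : MonoidAlgebra K G) :
    resSub N (single z (1 : K) * w) = single (⟨z, hz⟩ : N) (1 : K) * resSub N w := by
  apply MonoidAlgebra.ext
  apply Finsupp.ext
  intro n
  rw [resSub_coeff, coeff_single_mul_apply, coeff_single_mul_apply, resSub_coeff]
  simp

theorem resSub_gen_mul (N : Subgroup G) (z : G) (hz : z ∈ N) (w : MonoidAlgebra K G) :
    resSub N ((single z (1 : K) - 1) * w)
      = (single (⟨z, hz⟩ : N) (1 : K) - 1) * resSub N w := by
  rw [sub_mul, sub_mul, one_mul, one_mul, map_sub, resSub_single_mul N z hz]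

/-- Restriction to `N` maps the chain of `N` in `K[G]` into the augmentation chain of `K[N]`. -/
theorem resSub_mem_augFil (N : Subgroup G) :
    ∀ (j : ℕ) (x : MonoidAlgebra K G), x ∈ augFil N j →
      resSub N x ∈ (augFil (⊤ : Subgroup N) j : AddSubgroup (MonoidAlgebra K N)) := by
  intro j
  induction j with
  | zero =>
    intro x _
    rw [augFil_zero]
    exact AddSubgroup.mem_top _
  | succ j ih =>
    intro x hx
    rw [augFil_succ] at hx
    induction hx using AddSubgroup.closure_induction with
    | mem x hx =>
      obtain ⟨z, hz, w, hw, rfl⟩ := hx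
      rw [resSub_gen_mul N z hz, augFil_succ]
      exact AddSubgroup.subset_closure ⟨⟨z, hz⟩, Subgroup.mem_top _, _, ih w hw, rfl⟩
    | zero =>
      rw [map_zero]
      exact AddSubgroup.zero_mem _
    | add a b _ _ ha hb =>
      rw [map_add]
      exact AddSubgroup.add_mem _ ha hb
    | neg a _ ha =>
      rw [map_neg]
      exact AddSubgroup.neg_mem _ ha

end fil

/-- A product of two `p`-groups is a `p`-group. -/
theorem isPGroup_prod (p : ℕ) {P Q : Type*} [Group P] [Group Q] (hP : IsPGroup p P)
    (hQ : IsPGroup p Q) : IsPGroup p (P × Q) := by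
  rintro ⟨a, b⟩
  obtain ⟨k, hk⟩ := hP a
  obtain ⟨l, hl⟩ := hQ b
  refine ⟨k + l, ?_⟩
  have ha : a ^ p ^ (k + l) = 1 := by rw [pow_add, pow_mul, hk, one_pow]
  have hb : b ^ p ^ (k + l) = 1 := by rw [pow_add, mul_comm, pow_mul, hl, one_pow]
  rw [Prod.pow_mk, ha, hb]
  rfl

/-- In a group that is residually a finite `p`-group, finitely many non-identity elements are
detected by one homomorphism to a finite `p`-group. -/
theorem exists_finite_pGroup_hom_avoiding (p : ℕ) {N : Type u} [Group N]
    (hN : ∀ x : N, x ≠ 1 → ∃ (P : Type u) (_ : Group P) (_ : Finite P),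
      IsPGroup p P ∧ ∃ f : N →* P, f x ≠ 1)
    (S : Finset N) (hS : ∀ s ∈ S, s ≠ 1) :
    ∃ (P : Type u) (_ : Group P) (_ : Finite P), IsPGroup p P ∧ ∃ f : N →* P,
      ∀ s ∈ S, f s ≠ 1 := by
  classical
  induction S using Finset.induction_on with
  | empty =>
    exact ⟨PUnit, inferInstance, inferInstance, IsPGroup.of_subsingleton _ _, 1, by simp⟩
  | insert a S ha ih =>
    obtain ⟨P, _, _, hP, f, hf⟩ := ih (fun s hs => hS s (Finset.mem_insert_of_mem hs))
    obtain ⟨Q, _, _, hQ, g, hg⟩ := hN a (hS a (Finset.mem_insert_self _ _))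
    refine ⟨P × Q, inferInstance, inferInstance, isPGroup_prod p hP hQ, f.prod g, ?_⟩
    intro s hs hsone
    have h1 : f s = 1 := congrArg Prod.fst hsone
    have h2 : g s = 1 := congrArg Prod.snd hsone
    rcases Finset.mem_insert.mp hs with rfl | hs
    · exact hg h2
    · exact hf s hs h1

/-- A homomorphism to a finite `p`-group kills a deep enough term of the augmentation chain. -/
theorem exists_augFil_map_eq_zero (p : ℕ) [Fact p.Prime] (K : Type v) [Ring K] [CharP K p]
    {N P : Type u} [Group N] [Group P] [Finite P] (hP : IsPGroup p P) (f : N →* P) :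
    ∃ m, ∀ y ∈ (augFil (⊤ : Subgroup N) m : AddSubgroup (MonoidAlgebra K N)),
      mapDomainRingHom K f y = 0 := by
  obtain ⟨m, hm⟩ := exists_aug_nilpotent p K (Nat.card P) P hP le_rfl
  have key : ∀ x ∈ AddSubgroup.closure
      {x | ∃ l : List N, (∀ z ∈ l, z ∈ (⊤ : Subgroup N)) ∧ l.length = m ∧
        ∃ w, x = (l.map fun z => (single z (1 : K) - 1 : MonoidAlgebra K N)).prod * w},
      mapDomainRingHom K f x = 0 := by
    intro x hx
    induction hx using AddSubgroup.closure_induction with
    | mem x hx =>
      obtain ⟨l, -, hlen, w, rfl⟩ := hx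
      rw [map_mul, map_list_prod, List.map_map]
      have e : (List.map ((mapDomainRingHom K f) ∘ fun z : N =>
          (single z (1 : K) - 1 : MonoidAlgebra K N)) l)
          = (l.map f).map fun z : P => (single z (1 : K) - 1 : MonoidAlgebra K P) := by
        rw [List.map_map]
        apply List.map_congr_left
        intro z _
        exact mapDomainRingHom_gen K f z
      rw [e, hm (l.map f) (by simp [hlen]), zero_mul]
    | zero => exact map_zero _
    | add a b _ _ ha hb => rw [map_add, ha, hb, add_zero]
    | neg a _ ha => rw [map_neg, ha, neg_zero]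
  exact ⟨m, fun y hy => key y (augFil_le_products (⊤ : Subgroup N) m hy)⟩

/-- The augmentation chain of `K[N]` has zero intersection when `N` is residually a finite
`p`-group and `K` has characteristic `p`. -/
theorem eq_zero_of_forall_mem_augFil_top (p : ℕ) [Fact p.Prime] (K : Type v) [Ring K]
    [CharP K p] {N : Type u} [Group N]
    (hN : ∀ x : N, x ≠ 1 → ∃ (P : Type u) (_ : Group P) (_ : Finite P),
      IsPGroup p P ∧ ∃ f : N →* P, f x ≠ 1)
    (y : MonoidAlgebra K N)
    (hy : ∀ j, y ∈ (augFil (⊤ : Subgroup N) j : AddSubgroup (MonoidAlgebra K N))) : y = 0 := by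
  classical
  let S₀ : Finset N := y.coeff.support
  let S : Finset N := ((S₀ ×ˢ S₀).image fun st => st.1⁻¹ * st.2).filter fun g => g ≠ 1
  obtain ⟨P, _, _, hP, f, hf⟩ := exists_finite_pGroup_hom_avoiding p hN S
    (fun s hs => (Finset.mem_filter.mp hs).2)
  obtain ⟨m, hm⟩ := exists_augFil_map_eq_zero p K hP f
  have h0 : mapDomain f y = mapDomain f (0 : MonoidAlgebra K N) := by
    rw [mapDomain_zero]
    exact hm y (hy m)
  have hinj : Set.InjOn f (S₀ : Set N) := by
    intro s hs t ht hst
    by_contra hne
    have h2 : s⁻¹ * t ≠ 1 := fun h => hne (inv_mul_eq_one.mp h)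
    apply hf (s⁻¹ * t) (Finset.mem_filter.mpr ⟨Finset.mem_image.mpr
      ⟨(s, t), Finset.mem_product.mpr ⟨hs, ht⟩, rfl⟩, h2⟩)
    rw [map_mul, map_inv, hst, inv_mul_cancel]
  refine eq_of_mapDomain_eq_of_injOn f (S₀ : Set N) hinj y 0 (fun g hg => hg) ?_ h0
  intro g hg
  simp at hg

/-- The chain `augFil N` of `K[G]` has zero intersection when the normal subgroup `N` is
residually a finite `p`-group and `K` has characteristic `p`. -/
theorem eq_zero_of_forall_mem_augFil (p : ℕ) [Fact p.Prime] (K : Type v) [Ring K]
    [CharP K p] {G : Type u} [Group G] (N : Subgroup G)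
    (hN : ∀ x : N, x ≠ 1 → ∃ (P : Type u) (_ : Group P) (_ : Finite P),
      IsPGroup p P ∧ ∃ f : N →* P, f x ≠ 1)
    (x : MonoidAlgebra K G)
    (hx : ∀ j, x ∈ (augFil N (j + 1) : AddSubgroup (MonoidAlgebra K G))) : x = 0 := by
  apply MonoidAlgebra.ext
  apply Finsupp.ext
  intro g
  have hx' : ∀ j, x * single g⁻¹ (1 : K) ∈ (augFil N j : AddSubgroup (MonoidAlgebra K G)) := by
    intro j
    cases j with
    | zero =>
      rw [augFil_zero]
      exact AddSubgroup.mem_top _
    | succ j => exact augFil_right_stable N (j + 1) x _ (hx j)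
  have h0 := eq_zero_of_forall_mem_augFil_top p K hN (resSub N (x * single g⁻¹ (1 : K)))
    (fun j => resSub_mem_augFil N j _ (hx' j))
  have h1 := congrArg (fun y : MonoidAlgebra K N => y.coeff 1) h0
  simp only [resSub_coeff, coeff_zero, Finsupp.coe_zero, Pi.zero_apply] at h1
  rw [coeff_mul_single_apply] at h1
  simpa using h1

/-- Closure of stable finiteness in characteristic `p` under extensions whose kernel is
residually a finite `p`-group (as an abstract group). -/
theorem stablyFinite_of_residuallyP_normal (p : ℕ) [Fact p.Prime] (K : Type v) [Ring K]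
    [CharP K p] {G : Type u} [Group G] (N : Subgroup G) [N.Normal]
    (hN : ∀ x : N, x ≠ 1 → ∃ (P : Type u) (_ : Group P) (_ : Finite P),
      IsPGroup p P ∧ ∃ f : N →* P, f x ≠ 1)
    (hQ : IsStablyFiniteRing (MonoidAlgebra K (G ⧸ N))) :
    IsStablyFiniteRing (MonoidAlgebra K G) :=
  stablyFinite_of_sep_kernel (mapDomainRingHom K (QuotientGroup.mk' N)) (augFil N)
    (augFil_mul N) (eq_zero_of_forall_mem_augFil p K N hN) (mem_augFil_one_of_map_eq_zero N) hQ

/-- Closure of direct finiteness in characteristic `p` under extensions whose kernel is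
residually a finite `p`-group (as an abstract group). -/
theorem dedekindFinite_of_residuallyP_normal (p : ℕ) [Fact p.Prime] (K : Type v) [Ring K]
    [CharP K p] {G : Type u} [Group G] (N : Subgroup G) [N.Normal]
    (hN : ∀ x : N, x ≠ 1 → ∃ (P : Type u) (_ : Group P) (_ : Finite P),
      IsPGroup p P ∧ ∃ f : N →* P, f x ≠ 1)
    (hQ : IsDedekindFiniteMonoid (MonoidAlgebra K (G ⧸ N))) :
    IsDedekindFiniteMonoid (MonoidAlgebra K G) :=
  dedekindFinite_of_sep_kernel (mapDomainRingHom K (QuotientGroup.mk' N)) (augFil N)
    (augFil_mul N) (eq_zero_of_forall_mem_augFil p K N hN) (mem_augFil_one_of_map_eq_zero N) hQ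

end Vale.Agent.H52
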